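import Vale.Agent.P202.H834.LocMod

/-!
Lech's conjecture, Lech's inequality for modules, and the localization inequality for
multiplicities of rings and modules.
-/

open Filter Topology IsLocalRing TensorProduct Vale.Agent.P202.H834

universe u v w

/-- (1) Lech's conjecture: `e(R) ≤ e(S)` for every flat local homomorphism `R → S` of Noetherian
local rings.
(2) The same for modules: `e(M) ≤ e(S ⊗ M)` for every nonzero finitely generated `R`-module `M`,
where `dim (S ⊗ M) = dim M + dim S/𝔪S`.
(3) The localization inequality: `e(A_P) ≤ e(A)` for every Noetherian local ring `A` and every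
prime `P` with `ht P + dim A/P = dim A`.
(4) The same for modules: `e(M_P) ≤ e(M)` for every nonzero finitely generated `A`-module `M` and
every prime `P` with `dim M_P + dim A/P = dim M`. -/
theorem Vale.Agent.Results.P202.LechModules.result :
    (∀ (R : Type u) (S : Type v) [CommRing R] [IsLocalRing R] [IsNoetherianRing R]
      [CommRing S] [IsLocalRing S] [IsNoetherianRing S]
      [Algebra R S] [IsLocalHom (algebraMap R S)] [Module.Flat R S],
      ∃ d s eR eS : ℕ, ringKrullDim R = d ∧ ringKrullDim S = s ∧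
        Tendsto (fun N : ℕ => (d.factorial : ℝ) *
          ((Module.length R (R ⧸ maximalIdeal R ^ N)).toNat : ℝ) / (N : ℝ) ^ d) atTop
          (𝓝 (eR : ℝ)) ∧
        Tendsto (fun N : ℕ => (s.factorial : ℝ) *
          ((Module.length S (S ⧸ maximalIdeal S ^ N)).toNat : ℝ) / (N : ℝ) ^ s) atTop
          (𝓝 (eS : ℝ)) ∧ eR ≤ eS) ∧
    (∀ (R : Type u) (S : Type v) [CommRing R] [IsLocalRing R] [IsNoetherianRing R]
      [CommRing S] [IsLocalRing S] [IsNoetherianRing S]
      [Algebra R S] [IsLocalHom (algebraMap R S)] [Module.Flat R S]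
      (M : Type w) [AddCommGroup M] [Module R M] [Module.Finite R M] [Nontrivial M],
      ∃ m f a b : ℕ, ringKrullDim (S ⧸ (maximalIdeal R).map (algebraMap R S)) = f ∧
        HasMult R M m a ∧ HasMult S (S ⊗[R] M) (m + f) b ∧ a ≤ b) ∧
    (∀ (A : Type u) [CommRing A] [IsLocalRing A] [IsNoetherianRing A] (P : Ideal A) [P.IsPrime],
      (P.height : WithBot ℕ∞) + ringKrullDim (A ⧸ P) = ringKrullDim A →
      ∃ h d a b : ℕ, HasRingMult (Localization.AtPrime P) h a ∧ HasRingMult A d b ∧ a ≤ b) ∧
    (∀ (A : Type u) [CommRing A] [IsLocalRing A] [IsNoetherianRing A] (P : Ideal A) [P.IsPrime]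
      (M : Type w) [AddCommGroup M] [Module A M] [Module.Finite A M] [Nontrivial M],
      Module.supportDim (Localization.AtPrime P) (LocalizedModule P.primeCompl M) +
        ringKrullDim (A ⧸ P) = Module.supportDim A M →
      ∃ h m a b : ℕ, HasMult (Localization.AtPrime P) (LocalizedModule P.primeCompl M) h a ∧
        HasMult A M m b ∧ a ≤ b) :=
  ⟨fun _ _ _ _ _ _ _ _ _ _ _ => Vale.Agent.Results.P202.Lech.result,
    fun _ _ _ _ _ _ _ _ _ _ _ M _ _ _ _ => lech_module M,
    fun _ _ _ _ P _ hdim => loc_ring P hdim,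
    fun _ _ _ _ P _ M _ _ _ _ hdim => loc_module P M hdim⟩
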