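import Vale.Agent.P202.H664.Final

/-!
Lech's conjecture, with an upper bound, for modules, for hypersurface sections, and for flat
morphisms of schemes.
-/

open IsLocalRing TensorProduct AlgebraicGeometry Vale.Agent.P202.H834 Vale.Agent.P202.H664

universe u v w

/-- (1) Lech's conjecture: `e(R) ≤ e(S)` for every flat local homomorphism `R → S` of Noetherian
local rings.
(2) The two-sided form: for such `R → S`, with closed fibre `F = S/𝔪S`, `dim S = dim R + dim F`,
`e(R) ≤ e(S) ≤ e(R) e(F)`, `e(S) = e(R)` if `F` is regular, and `e(S) ≤ e(S/(x_1, …, x_r))` if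
`x_1, …, x_r` in the maximal ideal of `S` lower the dimension by `r`.
(3) The same for every nonzero finitely generated `R`-module `M` and the `S`-module `S ⊗ M`.
(4) The upper bound `e(S ⊗ M) ≤ e(M) e(F)` for all local homomorphisms, flat or not, with
`dim (S ⊗ M) = dim M + dim F`.
(5) Statement (2) for the homomorphisms `𝒪_{Y,φ(x)} → 𝒪_{X,x}` for all points `x` of `X` and all
flat morphisms `φ : X ⟶ Y` of locally Noetherian schemes. -/
theorem Vale.Agent.Results.P202.TwoSidedLech.result :
    (∀ (R : Type u) (S : Type v) [CommRing R] [IsLocalRing R] [IsNoetherianRing R]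
      [CommRing S] [IsLocalRing S] [IsNoetherianRing S]
      [Algebra R S] [IsLocalHom (algebraMap R S)] [Module.Flat R S],
      ∃ d s a b : ℕ, HasRingMult R d a ∧ HasRingMult S s b ∧ a ≤ b) ∧
    (∀ (R : Type u) (S : Type v) [CommRing R] [IsLocalRing R] [IsNoetherianRing R]
      [CommRing S] [IsLocalRing S] [IsNoetherianRing S]
      [Algebra R S] [IsLocalHom (algebraMap R S)] [Module.Flat R S],
      TwoSidedBound (algebraMap R S) ∧
      ∀ (M : Type w) [AddCommGroup M] [Module R M] [Module.Finite R M] [Nontrivial M],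
        ∃ m f a b c : ℕ, HasMult R M m a ∧ HasFibreMult (algebraMap R S) f c ∧
          HasMult S (S ⊗[R] M) (m + f) b ∧ a ≤ b ∧ b ≤ a * c ∧
          (HasRegularFibre (algebraMap R S) → b = a) ∧ SectionBound S (S ⊗[R] M) (m + f) b) ∧
    (∀ (R : Type u) (S : Type v) [CommRing R] [IsLocalRing R] [IsNoetherianRing R]
      [CommRing S] [IsLocalRing S] [IsNoetherianRing S]
      [Algebra R S] [IsLocalHom (algebraMap R S)]
      (M : Type w) [AddCommGroup M] [Module R M] [Module.Finite R M] [Nontrivial M],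
      Module.supportDim S (S ⊗[R] M) = Module.supportDim R M +
        Module.supportDim S (S ⧸ (maximalIdeal R).map (algebraMap R S)) →
      ∃ m f a b c : ℕ, HasMult R M m a ∧ HasFibreMult (algebraMap R S) f c ∧
        HasMult S (S ⊗[R] M) (m + f) b ∧ b ≤ a * c) ∧
    (∀ (X Y : Scheme.{u}) [IsLocallyNoetherian X] [IsLocallyNoetherian Y] (φ : X ⟶ Y) [Flat φ]
      (x : X), TwoSidedBound (φ.stalkMap x).hom) :=
  ⟨fun _ _ _ _ _ _ _ _ _ _ _ => lech_ring,
    fun _ _ _ _ _ _ _ _ _ _ _ => ⟨ring_main, fun M _ _ _ _ => flat_main M⟩,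
    fun _ _ _ _ _ _ _ _ _ _ M _ _ _ _ hdim => upper_main M hdim,
    fun _ _ _ _ φ _ x => scheme_main φ x⟩
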